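import Mathlib
import Vale.Agent.P031.Main
import Vale.Agent.P031.Collision
import Vale.Agent.P031.Box
import Vale.Agent.P031.Band

/-!
P031, Q2 (Erdős–Hall): `V(cx)/V(x) → c` for every fixed `c > 1`.
-/

open Filter

namespace Vale.Agent.Results.P031.ErdosHall

/-- For every real `c > 1`, the number of distinct totient values up to `c * x` divided by the
number up to `x` tends to `c`. -/
theorem result :
    ∀ c : ℝ, 1 < c →
      Tendsto (fun x : ℝ =>
          (({v : ℕ | (v : ℝ) ≤ c * x ∧ ∃ n : ℕ, 1 ≤ n ∧ Nat.totient n = v}.ncard : ℕ) : ℝ) /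
            (({v : ℕ | (v : ℝ) ≤ x ∧ ∃ n : ℕ, 1 ≤ n ∧ Nat.totient n = v}.ncard : ℕ) : ℝ))
        atTop (nhds c) :=
  Vale.Agent.P031.erdos_hall_of Vale.Agent.P031.collisionBound
    (Vale.Agent.P031.bandNegligible_of Vale.Agent.P031.boxBound)

end Vale.Agent.Results.P031.ErdosHall
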